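import Mathlib
import Vale.Agent.Lib.P302.helper14.MultiQ

/-!
Chunked certificates for the non-existence of a triple partition.

A state is a list of item sizes. The layered triple search of `helper14.Layer` is replayed on
explicit data: the states of each layer are listed, and for every listed state each of its
children (`childrenOf`) is either heavy (its total size is too large for a triple partition)
or is listed in the next layer. The kernel checks one chunk of states at a time.
-/

namespace Vale.Agent.Lib.P302.lead

open Vale.Agent.Lib.P302.helper14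

/-- One step of the triple search: a triple partition of a nonempty state yields a
triple-partitioned child state. -/
theorem exists_child {L : ℕ} : ∀ {s : List ℕ}, s ≠ [] → TriPart L (s : Multiset ℕ) →
    ∃ s' ∈ childrenOf L s, TriPart L (s' : Multiset ℕ)
  | [], hs, _ => absurd rfl hs
  | x :: rest, _, hT => by
    obtain ⟨b, hb, c', hmf, hfit, hc'mem, hT'⟩ := triPart_child hT
    have hm0 := minList_le rest x
    obtain ⟨s', hs'T, hs'⟩ := children_good (L := L) (x := x) (m0 := minList x rest)
      (rest := rest) hm0.2 rest none none (fun b hb => hb) (fun lb lc h => by simp at h)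
      (fun p c hp _ => by simp at hp) b hb c' hmf hT'
    refine ⟨s', ?_, hs'T⟩
    unfold childrenOf
    rcases hs' with h1 | ⟨lb, lc, h1, -⟩
    · exact h1
    · simp at h1

/-- A state is heavy when three times its total size exceeds its length times the capacity. -/
def heavy (L : ℕ) (s : List ℕ) : Bool := Nat.blt (s.length * L) (3 * s.sum)

/-- In a triple-partitioned multiset the average size is at most a third of the capacity. -/
theorem triPart_sum_le {L : ℕ} {M : Multiset ℕ} (h : TriPart L M) :
    3 * M.sum ≤ Multiset.card M * L := by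
  obtain ⟨T, hT, rfl⟩ := h
  induction T using Multiset.induction_on with
  | empty => simp
  | cons τ T ih =>
    have h1 := hT τ (Multiset.mem_cons_self _ _)
    have h2 := ih (fun τ' hτ' => hT τ' (Multiset.mem_cons_of_mem hτ'))
    simp only [Multiset.sum_cons, Multiset.sum_add, Multiset.card_add]
    rw [h1.1]
    nlinarith [h1.2]

theorem heavy_sound {L : ℕ} {s : List ℕ} (h : heavy L s = true) :
    ¬ TriPart L (s : Multiset ℕ) := by
  intro hT
  have h1 := triPart_sum_le hT
  unfold heavy at h
  rw [Nat.blt_eq] at h
  simp only [Multiset.sum_coe, Multiset.coe_card] at h1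
  omega

/-- Membership in a list of states that is sorted increasingly for `lcmp`: a linear scan that
stops at the first larger state. -/
def memS (x : List ℕ) : List (List ℕ) → Bool
  | [] => false
  | y :: ys =>
    match lcmp x y with
    | Ordering.eq => true
    | Ordering.gt => memS x ys
    | Ordering.lt => false

theorem memS_sound {x : List ℕ} : ∀ {ys : List (List ℕ)}, memS x ys = true → x ∈ ys
  | [], h => by simp [memS] at h
  | y :: ys, h => by
    unfold memS at h
    cases hc : lcmp x y with
    | eq =>
      rw [lcmp_eq hc]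
      exact List.mem_cons_self
    | gt =>
      rw [hc] at h
      exact List.mem_cons_of_mem _ (memS_sound h)
    | lt =>
      rw [hc] at h
      simp at h

/-- The chunk check: every state of `A` is nonempty and each of its children is heavy or belongs
to `B`. -/
def stepOK (L : ℕ) (A B : List (List ℕ)) : Bool :=
  A.all fun s => !s.isEmpty && (childrenOf L s).all fun c => heavy L c || memS c B

theorem stepOK_sound {L : ℕ} {A B : List (List ℕ)} (h : stepOK L A B = true)
    (hB : ∀ s ∈ B, ¬ TriPart L (s : Multiset ℕ)) : ∀ s ∈ A, ¬ TriPart L (s : Multiset ℕ) := by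
  intro s hs hT
  have h1 := List.all_eq_true.mp h s hs
  rw [Bool.and_eq_true] at h1
  obtain ⟨hne, hch⟩ := h1
  have hs' : s ≠ [] := by
    intro h0
    subst h0
    simp at hne
  obtain ⟨c, hc, hcT⟩ := exists_child hs' hT
  have h2 := List.all_eq_true.mp hch c hc
  rw [Bool.or_eq_true] at h2
  rcases h2 with h2 | h2
  · exact heavy_sound h2 hcT
  · exact hB c (memS_sound h2) hcT

theorem noTri_append {L : ℕ} {A B : List (List ℕ)}
    (hA : ∀ s ∈ A, ¬ TriPart L (s : Multiset ℕ)) (hB : ∀ s ∈ B, ¬ TriPart L (s : Multiset ℕ)) :
    ∀ s ∈ A ++ B, ¬ TriPart L (s : Multiset ℕ) := by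
  intro s hs
  rcases List.mem_append.mp hs with h | h
  · exact hA s h
  · exact hB s h

theorem noTri_nil {L : ℕ} : ∀ s ∈ ([] : List (List ℕ)), ¬ TriPart L (s : Multiset ℕ) := by
  intro s hs
  simp at hs

/-- If all items are larger than a quarter of the capacity, the list is sorted non-increasingly
and its lightest `3 (n - 2m)` items have no triple partition, then the items cannot be packed
into `m` bins. -/
theorem not_packable_of_noTri {l : List ℕ} {L m : ℕ} (hsorted : sortedDesc l = true)
    (hL : 0 < L) (hbig : ∀ k ∈ l, L < 4 * k) (h3 : 3 * (l.length - 2 * m) ≤ l.length)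
    (hno : ¬ TriPart L
      ((l.drop (l.length - 3 * (l.length - 2 * m)) : List ℕ) : Multiset ℕ)) :
    ¬ PackableNat l L m := by
  intro hp
  obtain ⟨j, U, hU, hc, hT⟩ := exists_triples_q hL (fun k hk => (hbig k hk).le) hp
  have hj : j = 0 := by
    by_contra hj
    have hmem : L / 4 ∈ (l : Multiset ℕ) := by
      apply Multiset.mem_of_le hU
      apply Multiset.mem_add.mpr
      left
      rw [Multiset.mem_replicate]
      exact ⟨by omega, rfl⟩
    have := hbig (L / 4) (by simpa using hmem)
    omega
  subst hj
  simp only [Nat.mul_zero, Multiset.replicate_zero, zero_add, Nat.sub_zero] at hU hc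
  have hQ : QTri L (l : Multiset ℕ) (l.length - 2 * m) := ⟨U, hU, hc, hT⟩
  have hQ' := QTri.drop (l.length - 3 * (l.length - 2 * m)) l (sortedDesc_sound hsorted)
    (by omega) hQ
  obtain ⟨U2, hU2, hc2, hT2⟩ := hQ'
  have hUeq : U2
      = ((l.drop (l.length - 3 * (l.length - 2 * m)) : List ℕ) : Multiset ℕ) := by
    apply Multiset.eq_of_le_of_card_le hU2
    simp only [Multiset.coe_card, List.length_drop]
    omega
  rw [hUeq] at hT2
  exact hno hT2

/-- Certificate theorem: if the items of integer sizes `l` cannot be packed into `m` bins of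
capacity `L` and `zs` is a feasible fractional solution of value `V / D`, then
`OPT - LP ≥ m + 1 - V / D`. -/
theorem gap_of_noPack (l : List ℕ) (L m D : ℕ) (zs : List (List ℕ × ℕ)) (hL : 0 < L)
    (hD : 0 < D) (hle : ∀ k ∈ l, 0 < k ∧ k ≤ L) (hpack : ¬ PackableNat l L m)
    (hfrac : fracOK l L D zs = true) :
    IsInstance (ratInst l L) ∧
      ((m : ℝ) + 1) - (((zs.map Prod.snd).sum : ℕ) : ℝ) / D
        ≤ (OPT (ratInst l L) : ℝ) - LP (ratInst l L) := by
  have hI := ratInst_isInstance hL hle
  refine ⟨hI, ?_⟩
  have h1 : m + 1 ≤ OPT (ratInst l L) :=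
    opt_ge hI (fun hp => hpack (packableNat_of_packable hL hp))
  have h2 := lp_le (isFracSol_of_fracOK hL hD hfrac)
  rw [ratSol_value] at h2
  have h1' : ((m : ℝ) + 1) ≤ (OPT (ratInst l L) : ℝ) := by exact_mod_cast h1
  have h2' : LP (ratInst l L) ≤ (((zs.map Prod.snd).sum : ℕ) : ℝ) / D := by
    have e : ((((((zs.map Prod.snd).sum : ℕ) : ℚ) / D : ℚ)) : ℝ)
        = (((zs.map Prod.snd).sum : ℕ) : ℝ) / D := by
      rw [Rat.cast_div, Rat.cast_natCast, Rat.cast_natCast]
    rw [← e]
    exact h2
  linarith

end Vale.Agent.Lib.P302.lead
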